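import Mathlib

namespace Vale.Agent.Results.P058.SubtransitiveSpherical

/-- `X ⊆ ℝ^n` is transitive: the isometries of `ℝ^n` mapping `X` onto itself act
transitively on `X`. -/
def IsTransitive {n : ℕ} (X : Set (EuclideanSpace ℝ (Fin n))) : Prop :=
  ∀ x ∈ X, ∀ y ∈ X, ∃ g : EuclideanSpace ℝ (Fin n) ≃ᵢ EuclideanSpace ℝ (Fin n),
    g '' X = X ∧ g x = y

/-- `A ⊆ ℝ^d` and `B ⊆ ℝ^n` are congruent: `B` is the image of `A` under a map preserving
all pairwise distances of `A`. -/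
def Congruent {d n : ℕ} (A : Set (EuclideanSpace ℝ (Fin d)))
    (B : Set (EuclideanSpace ℝ (Fin n))) : Prop :=
  ∃ f : EuclideanSpace ℝ (Fin d) → EuclideanSpace ℝ (Fin n),
    (∀ a ∈ A, ∀ b ∈ A, dist (f a) (f b) = dist a b) ∧ f '' A = B

/-- `A` is subtransitive: it is congruent to a subset of a finite transitive set. -/
def IsSubtransitive {d : ℕ} (A : Set (EuclideanSpace ℝ (Fin d))) : Prop :=
  ∃ (n : ℕ) (X : Set (EuclideanSpace ℝ (Fin n))), X.Finite ∧ IsTransitive X ∧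
    ∃ B : Set (EuclideanSpace ℝ (Fin n)), B ⊆ X ∧ Congruent A B

/-- `A` is spherical: a congruent copy of `A` lies on a sphere of some Euclidean space. -/
def IsSpherical {d : ℕ} (A : Set (EuclideanSpace ℝ (Fin d))) : Prop :=
  ∃ (n : ℕ) (B : Set (EuclideanSpace ℝ (Fin n))), Congruent A B ∧
    ∃ (z : EuclideanSpace ℝ (Fin n)) (r : ℝ), ∀ b ∈ B, dist b z = r

theorem fixes_mean {n : ℕ} (s : Finset (EuclideanSpace ℝ (Fin n))) (hs : s.Nonempty)
    (g : EuclideanSpace ℝ (Fin n) ≃ᵢ EuclideanSpace ℝ (Fin n))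
    (hg : g '' (s : Set (EuclideanSpace ℝ (Fin n))) = s) :
    g (((s.card : ℝ)⁻¹) • ∑ x ∈ s, x) = ((s.card : ℝ)⁻¹) • ∑ x ∈ s, x := by
  classical
  have hN : (s.card : ℝ) ≠ 0 := by
    have := Finset.card_pos.mpr hs
    positivity
  have hcoe : ∀ v, g v = g.toRealAffineIsometryEquiv v := fun v => by
    rw [IsometryEquiv.coeFn_toRealAffineIsometryEquiv]
  have hdecomp : ∀ v, g v = g.toRealAffineIsometryEquiv.linearIsometryEquiv v + g 0 := by
    intro v
    have h := AffineIsometryEquiv.map_vadd g.toRealAffineIsometryEquiv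
      (0 : EuclideanSpace ℝ (Fin n)) v
    rw [vadd_eq_add, add_zero, vadd_eq_add] at h
    rw [hcoe v, hcoe 0]
    exact h
  have himage : s.image g = s := by
    apply Finset.coe_injective
    rw [Finset.coe_image]
    exact hg
  have hsum : ∑ x ∈ s, g x = ∑ x ∈ s, x := by
    conv_rhs => rw [← himage]
    rw [Finset.sum_image]
    intro x _ y _ hxy
    exact g.injective hxy
  have hsum2 : ∑ x ∈ s, g x
      = g.toRealAffineIsometryEquiv.linearIsometryEquiv (∑ x ∈ s, x) + (s.card : ℝ) • g 0 := by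
    rw [map_sum, Finset.sum_congr rfl (fun x _ => hdecomp x), Finset.sum_add_distrib,
      Finset.sum_const, Nat.cast_smul_eq_nsmul]
  rw [hdecomp, map_smul]
  have h3 : g.toRealAffineIsometryEquiv.linearIsometryEquiv (∑ x ∈ s, x)
      = ∑ x ∈ s, x - (s.card : ℝ) • g 0 := by
    have h4 : g.toRealAffineIsometryEquiv.linearIsometryEquiv (∑ x ∈ s, x)
        + (s.card : ℝ) • g 0 = ∑ x ∈ s, x := by rw [← hsum2, hsum]
    exact eq_sub_of_add_eq h4
  rw [h3, smul_sub, smul_smul, inv_mul_cancel₀ hN, one_smul]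
  abel

theorem transitive_on_sphere {n : ℕ} {X : Set (EuclideanSpace ℝ (Fin n))} (hfin : X.Finite)
    (ht : IsTransitive X) :
    ∃ (z : EuclideanSpace ℝ (Fin n)) (r : ℝ), ∀ x ∈ X, dist x z = r := by
  classical
  rcases X.eq_empty_or_nonempty with hX | ⟨x0, hx0⟩
  · exact ⟨0, 0, by simp [hX]⟩
  · have hs : hfin.toFinset.Nonempty := ⟨x0, by simpa using hx0⟩
    refine ⟨((hfin.toFinset.card : ℝ)⁻¹) • ∑ x ∈ hfin.toFinset, x, dist x0
      (((hfin.toFinset.card : ℝ)⁻¹) • ∑ x ∈ hfin.toFinset, x), ?_⟩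
    intro x hx
    obtain ⟨g, hg, hgx⟩ := ht x0 hx0 x hx
    have hfix := fixes_mean hfin.toFinset hs g (by simpa using hg)
    rw [← hgx]
    conv_lhs => rw [← hfix]
    exact g.dist_eq _ _

/-- Every subtransitive set is spherical. -/
theorem result {d : ℕ} (A : Set (EuclideanSpace ℝ (Fin d))) (h : IsSubtransitive A) :
    IsSpherical A := by
  obtain ⟨n, X, hfin, ht, B, hBX, hAB⟩ := h
  obtain ⟨z, r, hz⟩ := transitive_on_sphere hfin ht
  exact ⟨n, B, hAB, z, r, fun b hb => hz b (hBX hb)⟩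

end Vale.Agent.Results.P058.SubtransitiveSpherical
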